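import Vale.Agent.P011.H948.SIalg

/-!
# Intertwiners of two noncentral elements with the same reduced characteristic polynomial

`x` special unitary, `w` unitary with `T ((x - 1) w) = 0`: `w` is not central, `x w` and `w` have
the same reduced characteristic polynomial and are conjugate.  Any fields, any characteristic.
-/

open Module

set_option linter.unusedSectionVars false

namespace Vale.Agent.P011.H95

open Vale.Agent.P011.H775 Vale.Agent.P011.H948

section plain

variable {K D : Type} [Field K] [DivisionRing D] [Algebra K D] (C : Cub K D)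

/-- Two elements with the same reduced characteristic polynomial are both central or both not. -/
theorem not_range_of_same {w w' : D} (hw : w ∉ Set.range (algebraMap K D))
    (hT : C.T w' = C.T w) (hS : C.S w' = C.S w) (hN : C.N w' = C.N w) :
    w' ∉ Set.range (algebraMap K D) := by
  rintro ⟨c, rfl⟩
  rw [Algebra.algebraMap_eq_smul_one] at hT hS hN
  rw [map_smul, C.T_one, smul_eq_mul] at hT
  rw [Cub.S, adj_smul_one, map_smul, C.T_one, smul_eq_mul] at hS
  rw [N_smul_one] at hN
  apply hw
  refine ⟨c, ?_⟩
  have h1 : C.N (w - c • (1 : D)) = 0 := by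
    rw [N_sub_smul_one, ← hN, ← hS, ← hT]
    ring
  rw [C.N_eq_zero, sub_eq_zero] at h1
  rw [Algebra.algebraMap_eq_smul_one, h1]

/-- Two noncentral elements with the same reduced characteristic polynomial are conjugate. -/
theorem exists_inter [Algebra.IsCentral K D] {w w' : D} (hw : w ∉ Set.range (algebraMap K D))
    (hT : C.T w' = C.T w) (hS : C.S w' = C.S w) (hN : C.N w' = C.N w) :
    ∃ g : D, g ≠ 0 ∧ w' * g = g * w :=
  C.exists_conj hw (not_range_of_same C hw hT hS hN) hT.symm hS.symm hN.symm

/-- A nonzero element `w` with `T ((x - 1) w) = 0` is not central. -/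
theorem c_not_mem {x w : D} (hx3 : C.T x ≠ 3) (hw0 : w ≠ 0) (hT : C.T ((x - 1) * w) = 0) :
    w ∉ Set.range (algebraMap K D) := by
  rintro ⟨c, hc⟩
  have hc0 : c ≠ 0 := by
    rintro rfl
    exact hw0 (by rw [← hc, map_zero])
  rw [← hc, Algebra.algebraMap_eq_smul_one, mul_smul_comm, mul_one, map_smul, map_sub, C.T_one,
    smul_eq_mul] at hT
  exact hx3 (sub_eq_zero.mp ((mul_eq_zero.mp hT).resolve_left hc0))

end plain

section star

variable {K D : Type} [Field K] [StarRing K] [DivisionRing D] [StarRing D] [Algebra K D]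
  {C : Cub K D}

/-- `x w` and `w` have the same reduced characteristic polynomial. -/
theorem SNeq (h : SCub C) {x w : D} (hx : x * star x = 1) (hw : w * star w = 1)
    (hxN : C.N x = 1) (hT : C.T ((x - 1) * w) = 0) :
    C.T (x * w) = C.T w ∧ C.S (x * w) = C.S w ∧ C.N (x * w) = C.N w :=
  h.same hx hxN hw hT

/-- `x w` and `w` are conjugate. -/
theorem exists_inter_xw [Algebra.IsCentral K D] (h : SCub C) {x w : D} (hx : x * star x = 1)
    (hw : w * star w = 1) (hxN : C.N x = 1) (hx3 : C.T x ≠ 3) (hT : C.T ((x - 1) * w) = 0) :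
    ∃ g : D, g ≠ 0 ∧ x * w * g = g * w := by
  obtain ⟨h1, h2, h3⟩ := SNeq h hx hw hxN hT
  exact exists_inter C (c_not_mem C hx3 (h.ne_zero_of_unitary hw) hT) h1 h2 h3

end star

end Vale.Agent.P011.H95
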