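import Vale.Agent.P011.H95.Inter
import Vale.Agent.P011.H158.N4ValF

/-!
# Intertwiners are integral of unit norm at almost all places: function fields
-/

open Module

set_option linter.unusedSectionVars false

namespace Vale.Agent.P011.H95.FF

open Vale.Agent.P011.H305 Vale.Agent.P011.H738 Vale.Agent.P011.H271 Vale.Agent.P011.H182
  Vale.Agent.P011.H775 Vale.Agent.P011.H948 Vale.Agent.P011.H929.FF

section int

variable {k D : Type} [Field k] [GFF k] [DivisionRing D] [StarRing D] [Algebra k D] {N : ℕ}

/-- An element is integral at almost all places. -/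
theorem finite_not_ig (B : Basis (Fin N) k D) (x : D) : {v : Place k | ¬ Ig B v.abv x}.Finite := by
  refine (Set.finite_iUnion fun i => H158.N4.finite_big (B.repr x i)).subset fun v hv => ?_
  simp only [Set.mem_setOf_eq, Ig, not_forall] at hv
  obtain ⟨i, hi⟩ := hv
  exact Set.mem_iUnion.mpr ⟨i, hi⟩

/-- An intertwiner is integral of unit norm at almost all places. -/
theorem finite_not_goodInt (B : Basis (Fin N) k D) {w w' g : D} (hg0 : g ≠ 0)
    (hg : w' * g = g * w) : {v : Place k | ¬ GoodInt B v w w'}.Finite := by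
  refine ((finite_not_ig B g).union (finite_not_ig B g⁻¹)).subset fun v hv => ?_
  by_contra hcon
  rw [Set.mem_union, not_or] at hcon
  refine hv ⟨g, g⁻¹, 1, hg, not_not.mp hcon.1, not_not.mp hcon.2, ?_, map_one _⟩
  rw [inv_mul_cancel₀ hg0, map_one]

end int

section setting

variable {k K D : Type} [Field k] [GFF k] [Field K] [StarRing K]
    [DivisionRing D] [StarRing D] [Algebra k K] [Algebra k D] [Algebra K D] [IsScalarTower k K D]
    {d : kˣ} {s : K} {N : ℕ}

/-- **`x w` and `w` are conjugate**, function fields. -/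
theorem exists_inter_FF (hS : SetF k K D d s) (C : Cub K D) (h9 : finrank K D = 3 ^ 2)
    {x w : D} (hx : x * star x = 1) (hw : w * star w = 1) (hxN : C.N x = 1) (hx3 : C.T x ≠ 3)
    (hT : C.T ((x - 1) * w) = 0) : ∃ g : D, g ≠ 0 ∧ x * w * g = g * w := by
  have _ := hS.fin
  have _ := hS.cen
  exact exists_inter_xw (sCub_of C h9 hS.star_smul) hx hw hxN hx3 hT

/-- **Almost all places are good for the pair `(w, x w)`**, function fields. -/
theorem finite_not_goodInt_xw (hS : SetF k K D d s) (C : Cub K D) (h9 : finrank K D = 3 ^ 2)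
    (B : Basis (Fin N) k D) {x w : D} (hx : x * star x = 1) (hw : w * star w = 1)
    (hxN : C.N x = 1) (hx3 : C.T x ≠ 3) (hT : C.T ((x - 1) * w) = 0) :
    {v : Place k | ¬ GoodInt B v w (x * w)}.Finite := by
  obtain ⟨g, hg0, hg⟩ := exists_inter_FF hS C h9 hx hw hxN hx3 hT
  exact finite_not_goodInt B hg0 hg

end setting

end Vale.Agent.P011.H95.FF
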